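import Crest.Agent.N325.Bf.Walk

/-!
# Row 325 (helper31): small programs of the dynamic spanner (duplicates, numbering, index)
-/

set_option autoImplicit false

namespace Crest.Agent.N325.Dy

open Bf

variable {g : Gl}

/-- one step of the removal of duplicates -/
def ddStep (x : ℕ) (s : Arr Bool × List ℕ) : Arr Bool × List ℕ :=
  if s.1.get x then s else (s.1.set x true, x :: s.2)

theorem foldl_dd (l : List ℕ) (s : Arr Bool × List ℕ) (h : ∀ x, s.1.get x = true ↔ x ∈ s.2)
    (n : s.2.Nodup) :
    (∀ x, (l.foldl (fun s a => ddStep a s) s).1.get x = true ↔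
      x ∈ (l.foldl (fun s a => ddStep a s) s).2) ∧ (l.foldl (fun s a => ddStep a s) s).2.Nodup ∧
    (∀ x, x ∈ (l.foldl (fun s a => ddStep a s) s).2 ↔ x ∈ s.2 ∨ x ∈ l) ∧
    (l.foldl (fun s a => ddStep a s) s).2.length ≤ s.2.length + l.length := by
  induction l generalizing s with
  | nil => simp [h, n]
  | cons a l ih =>
    rw [List.foldl_cons]
    by_cases e : s.1.get a = true
    · have e' : ddStep a s = s := by simp [ddStep, e]
      rw [e']
      obtain ⟨i1, i2, i3, i4⟩ := ih s h n
      refine ⟨i1, i2, fun x => ?_, by simp only [List.length_cons]; omega⟩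
      rw [i3, List.mem_cons]
      have := (h a).1 e
      constructor
      · tauto
      · rintro (k | rfl | k) <;> tauto
    · have e' : ddStep a s = (s.1.set a true, a :: s.2) := by simp [ddStep, e]
      rw [e']
      obtain ⟨i1, i2, i3, i4⟩ := ih (s.1.set a true, a :: s.2) (fun x => by
        simp only [Arr.get_set, List.mem_cons]
        by_cases k : x = a <;> simp [k, h]) (List.nodup_cons.2 ⟨fun k => e ((h a).2 k), n⟩)
      refine ⟨i1, i2, fun x => ?_, by simp only [List.length_cons] at i4 ⊢; omega⟩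
      rw [i3]; simp only [List.mem_cons]; tauto

/-- removal of duplicates; also returns the membership array -/
def dedupR (l : List ℕ) : R (Arr Bool × List ℕ) := foldP ddStep l (Arr.cst false, [])

theorem sp_dedupR (l : List ℕ) :
    Sp g (dedupR l) fun r t => (∀ x, r.1.get x = true ↔ x ∈ l) ∧ r.2.Nodup ∧
      (∀ x, x ∈ r.2 ↔ x ∈ l) ∧ r.2.length ≤ l.length ∧ t = l.length + 1 :=
  (sp_foldP _ l _).mono fun r t h => by
    obtain ⟨i1, i2, i3, i4⟩ := foldl_dd l (Arr.cst false, []) (by simp) List.nodup_nil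
    rw [← h.1] at i1 i2 i3 i4
    simp only [List.not_mem_nil, false_or, List.length_nil, zero_add] at i3 i4
    exact ⟨fun x => (i1 x).trans (i3 x), i2, i3, i4, h.2⟩

/-- one step of the numbering -/
def numStep (x : ℕ) (s : Arr ℕ × ℕ) : Arr ℕ × ℕ := (s.1.set x s.2, s.2 + 1)

theorem foldl_num (l : List ℕ) (s : Arr ℕ × ℕ) (n : l.Nodup) :
    (l.foldl (fun s a => numStep a s) s).2 = s.2 + l.length ∧
    (∀ x, x ∉ l → (l.foldl (fun s a => numStep a s) s).1.get x = s.1.get x) ∧
    ∀ x ∈ l, (l.foldl (fun s a => numStep a s) s).1.get x = s.2 + l.idxOf x := by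
  induction l generalizing s with
  | nil => simp
  | cons a l ih =>
    rw [List.foldl_cons]
    obtain ⟨na, nl⟩ := List.nodup_cons.1 n
    obtain ⟨i1, i2, i3⟩ := ih (numStep a s) nl
    refine ⟨by rw [i1]; simp only [numStep, List.length_cons]; omega, fun x k => ?_, fun x k => ?_⟩
    · rw [List.mem_cons, not_or] at k
      rw [i2 x k.2]; exact Arr.get_set_ne _ k.1 _
    · by_cases e : x = a
      · subst e
        rw [i2 x na]; simp [numStep]
      · have k' : x ∈ l := (List.mem_cons.1 k).resolve_left e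
        rw [i3 x k', List.idxOf_cons_ne _ (Ne.symm e)]
        simp only [numStep]; omega

/-- numbering of a list without duplicates -/
def numR (l : List ℕ) : R (Arr ℕ × ℕ) := foldP numStep l (Arr.cst 0, 0)

theorem sp_numR {l : List ℕ} (n : l.Nodup) :
    Sp g (numR l) fun r t => r.2 = l.length ∧ (∀ x ∈ l, r.1.get x < r.2) ∧
      (∀ x ∈ l, ∀ y ∈ l, r.1.get x = r.1.get y → x = y) ∧ (∀ x, r.1.get x ≤ r.2) ∧
      t = l.length + 1 :=
  (sp_foldP _ l _).mono fun r t h => by
    obtain ⟨i1, i2, i3⟩ := foldl_num l (Arr.cst 0, 0) n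
    rw [← h.1] at i1 i2 i3
    simp only [zero_add] at i1 i3
    have lt : ∀ x ∈ l, r.1.get x < r.2 := fun x k => by
      rw [i3 x k, i1]; exact List.idxOf_lt_length_of_mem k
    refine ⟨i1, lt, fun x a y b e => ?_, fun x => ?_, h.2⟩
    · rw [i3 x a, i3 y b] at e
      exact (List.idxOf_inj a).1 e
    · by_cases k : x ∈ l
      · exact (lt x k).le
      · rw [i2 x k]; exact Nat.zero_le _

/-- push `e` on the list of `v` -/
def push (e v : ℕ) (a : Arr (List ℕ)) : Arr (List ℕ) := a.set v (e :: a.get v)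

theorem get_push (e v : ℕ) (a : Arr (List ℕ)) (u : ℕ) :
    (push e v a).get u = if v = u then e :: a.get u else a.get u := by
  unfold push; rw [Arr.get_set]; split_ifs <;> simp_all

/-- one edge of a walk in the index -/
def idxStep (vx : Arr ℕ) (e o : ℕ) (a : Arr (List ℕ)) : Arr (List ℕ) :=
  push e (vx.get (rv o)) (push e (vx.get o) a)

theorem get_idxStep (vx : Arr ℕ) (e o : ℕ) (a : Arr (List ℕ)) (u : ℕ) :
    (idxStep vx e o a).get u = List.replicate (cnt vx.get u [o]) e ++ a.get u := by
  unfold idxStep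
  rw [get_push, get_push, cnt_cons, cnt_nil]
  split_ifs <;> simp [List.replicate]

theorem foldl_idx (vx : Arr ℕ) (e : ℕ) (l : List ℕ) (a : Arr (List ℕ)) (u : ℕ) :
    (l.foldl (fun a o => idxStep vx e o a) a).get u =
      List.replicate (cnt vx.get u l) e ++ a.get u := by
  induction l generalizing a with
  | nil => simp
  | cons o l ih =>
    rw [List.foldl_cons, ih, get_idxStep, cnt_cons' u o l, ← List.append_assoc,
      List.replicate_append_replicate, add_comm]

/-- register the item `e` at all vertices of the walk `l` -/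
def addIdx (vx : Arr ℕ) (e : ℕ) (l : List ℕ) (a : Arr (List ℕ)) : R (Arr (List ℕ)) :=
  foldP (idxStep vx e) l a

theorem sp_addIdx (vx : Arr ℕ) (e : ℕ) (l : List ℕ) (a : Arr (List ℕ)) :
    Sp g (addIdx vx e l a) fun r t =>
      (∀ u, r.get u = List.replicate (cnt vx.get u l) e ++ a.get u) ∧ t = l.length + 1 :=
  (sp_foldP _ l a).mono fun r t h => ⟨fun u => by rw [h.1, foldl_idx], h.2⟩

end Crest.Agent.N325.Dy
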